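import Vale.Agent.P110.Ident

/-! P110: the averaged inequality. -/

namespace Vale.Agent.P110

open Finset Complex ComplexConjugate

/-- sum of the squared autocorrelations of the prefix of length `m` -/
noncomputable def AA (ε : ℕ → ℂ) (m : ℕ) : ℝ := ∑ d ∈ Ico 1 m, ‖ac ε d m‖ ^ 2

theorem AA_nonneg (ε : ℕ → ℂ) (m : ℕ) : 0 ≤ AA ε m := by
  unfold AA; positivity

theorem sum_Icc_eq (ε : ℕ → ℂ) {m K : ℕ} (h : m ≤ K + 1) :
    ∑ k ∈ Icc 1 K, ‖ac ε k m‖ ^ 2 = AA ε m := by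
  unfold AA
  symm
  apply sum_subset
  · intro x hx
    simp only [mem_Ico, mem_Icc] at hx ⊢
    omega
  · intro x hx hx'
    simp only [mem_Ico, mem_Icc] at hx hx'
    rw [ac_zero ε (by omega)]
    simp

theorem sum_Ico_le (ε : ℕ → ℂ) (m n : ℕ) :
    ∑ k ∈ Ico 1 n, ‖ac ε k m‖ ^ 2 ≤ AA ε m := by
  have h1 : ∑ k ∈ Ico 1 n, ‖ac ε k m‖ ^ 2 ≤ ∑ k ∈ Icc 1 (n + m), ‖ac ε k m‖ ^ 2 := by
    apply sum_le_sum_of_subset_of_nonneg
    · intro x hx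
      simp only [mem_Ico, mem_Icc] at hx ⊢
      omega
    · intros; positivity
  rw [sum_Icc_eq ε (by omega)] at h1
  exact h1

theorem norm_sub_sq_le (a b : ℂ) : ‖a - b‖ ^ 2 ≤ 2 * ‖a‖ ^ 2 + 2 * ‖b‖ ^ 2 := by
  have h := norm_sub_le a b
  have h0 := norm_nonneg (a - b)
  nlinarith [sq_nonneg (‖a‖ - ‖b‖), norm_nonneg a, norm_nonneg b]

theorem one_step (ε : ℕ → ℂ) (hε : ∀ k, ‖ε k‖ = 1) (N n : ℕ) :
    (n : ℝ) * N ≤ 2 * AA ε (N + n) + 2 * AA ε N + ∑ d ∈ Ico 1 n, ‖ac ε d (N + d)‖ ^ 2 := by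
  have h := ident ε hε N n
  have h1 : ∑ k ∈ Icc 1 (N + n), ‖ac ε k (N + n) - ac ε k N‖ ^ 2
      ≤ 2 * AA ε (N + n) + 2 * AA ε N := by
    rw [← sum_Icc_eq ε (by omega : N + n ≤ (N + n) + 1), ← sum_Icc_eq ε (by omega : N ≤ (N + n) + 1),
      mul_sum, mul_sum, ← sum_add_distrib]
    exact sum_le_sum fun k _ => norm_sub_sq_le _ _
  rw [sum_sub_distrib] at h
  have h2 : 0 ≤ ∑ d ∈ Ico 1 n, ‖ac ε d (N + n)‖ ^ 2 := by positivity
  linarith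

theorem sum_nat_Ico (M n : ℕ) : ∑ N ∈ Ico M (M + n), (N : ℝ) = n * M + n * (n - 1) / 2 := by
  induction n with
  | zero => simp
  | succ n ih =>
    rw [← add_assoc, sum_Ico_succ_top (by omega), ih]
    push_cast
    ring

/-- sums over `[M, M + n)` and its translate by `n` -/
theorem sum_two (f : ℕ → ℝ) (M n : ℕ) :
    ∑ N ∈ Ico M (M + n), f (N + n) + ∑ N ∈ Ico M (M + n), f N = ∑ m ∈ Ico M (M + 2 * n), f m := by
  have h1 : ∑ N ∈ Ico M (M + n), f (N + n) = ∑ m ∈ Ico (M + n) (M + 2 * n), f m := by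
    rw [Finset.sum_Ico_add' f M (M + n) n]
    congr 2
    ring
  rw [h1, add_comm, sum_Ico_consecutive f (by omega) (by omega)]

theorem avg (ε : ℕ → ℂ) (hε : ∀ k, ‖ε k‖ = 1) (M n : ℕ) :
    (n : ℝ) ^ 2 * (2 * M + n - 1) / 2 ≤ 3 * ∑ m ∈ Ico M (M + 2 * n), AA ε m := by
  have h1 : ∑ N ∈ Ico M (M + n), (n : ℝ) * N ≤ ∑ N ∈ Ico M (M + n),
      (2 * AA ε (N + n) + 2 * AA ε N + ∑ d ∈ Ico 1 n, ‖ac ε d (N + d)‖ ^ 2) :=
    sum_le_sum fun N _ => one_step ε hε N n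
  have h2 : ∑ N ∈ Ico M (M + n), (n : ℝ) * N = (n : ℝ) ^ 2 * (2 * M + n - 1) / 2 := by
    rw [← mul_sum, sum_nat_Ico]
    ring
  have h3 : ∑ N ∈ Ico M (M + n), (2 * AA ε (N + n) + 2 * AA ε N)
      = 2 * ∑ m ∈ Ico M (M + 2 * n), AA ε m := by
    rw [← sum_two, sum_add_distrib, ← mul_sum, ← mul_sum]
    ring
  have h4 : ∑ N ∈ Ico M (M + n), ∑ d ∈ Ico 1 n, ‖ac ε d (N + d)‖ ^ 2
      ≤ ∑ m ∈ Ico M (M + 2 * n), AA ε m := by
    rw [sum_comm]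
    calc ∑ d ∈ Ico 1 n, ∑ N ∈ Ico M (M + n), ‖ac ε d (N + d)‖ ^ 2
        ≤ ∑ d ∈ Ico 1 n, ∑ m ∈ Ico M (M + 2 * n), ‖ac ε d m‖ ^ 2 := by
          apply sum_le_sum
          intro d hd
          rw [mem_Ico] at hd
          rw [Finset.sum_Ico_add' (fun m => ‖ac ε d m‖ ^ 2) M (M + n) d]
          apply sum_le_sum_of_subset_of_nonneg
          · intro x hx
            simp only [mem_Ico] at hx ⊢
            omega
          · intros; positivity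
      _ = ∑ m ∈ Ico M (M + 2 * n), ∑ d ∈ Ico 1 n, ‖ac ε d m‖ ^ 2 := sum_comm
      _ ≤ _ := sum_le_sum fun m _ => sum_Ico_le ε m n
  rw [h2, sum_add_distrib, h3] at h1
  linarith

end Vale.Agent.P110
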