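import Mathlib

/-! P110: initial segments of one infinite sequence of unimodular coefficients. -/

namespace Vale.Agent.P110

/-- The initial segment `P_N(z) = ∑_{k < N} ε_k z ^ k` of the sequence `ε`. -/
noncomputable def seg (ε : ℕ → ℂ) (N : ℕ) (z : ℂ) : ℂ := ∑ k ∈ Finset.range N, ε k * z ^ k

/-- The mean of `|P_N|^4` over the unit circle. -/
noncomputable def L4 (ε : ℕ → ℂ) (N : ℕ) : ℝ :=
  (1 / (2 * Real.pi)) * ∫ θ in (0 : ℝ)..(2 * Real.pi), ‖seg ε N (Complex.exp (θ * Complex.I))‖ ^ 4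

end Vale.Agent.P110
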