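import Vale.Agent.P110.Defs

/-! P110: the exact identity for aperiodic autocorrelations. -/

namespace Vale.Agent.P110

open Finset Complex ComplexConjugate

/-- aperiodic autocorrelation of the prefix of length `m` at shift `d` -/
noncomputable def ac (ε : ℕ → ℂ) (d m : ℕ) : ℂ := ∑ j ∈ range (m - d), ε (j + d) * conj (ε j)

theorem ac_zero (ε : ℕ → ℂ) {d m : ℕ} (h : m ≤ d) : ac ε d m = 0 := by
  unfold ac
  rw [Nat.sub_eq_zero_of_le h]
  simp

theorem ac_succ (ε : ℕ → ℂ) {d m : ℕ} (h : d ≤ m) :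
    ac ε d (m + 1) = ac ε d m + ε m * conj (ε (m - d)) := by
  unfold ac
  rw [show m + 1 - d = (m - d) + 1 by omega, sum_range_succ]
  rw [show m - d + d = m by omega]

/-- exchange of summation -/
theorem cross (ε : ℕ → ℂ) {N T : ℕ} (h : N ≤ T) :
    ∑ k ∈ Icc 1 T, ε (T - k) * ac ε k N = ∑ d ∈ Icc (T - N + 1) T, ε (T - d) * ac ε d T := by
  have e1 : ∑ d ∈ Icc (T - N + 1) T, ε (T - d) * ac ε d T
      = ∑ i ∈ range N, ∑ j ∈ range i, ε i * (ε (j + (T - i)) * conj (ε j)) := by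
    apply sum_bij' (fun d _ => T - d) (fun i _ => T - i)
    · intro d hd
      rw [mem_Icc] at hd
      rw [mem_range]
      omega
    · intro i hi
      rw [mem_range] at hi
      rw [mem_Icc]
      omega
    · intro d hd
      rw [mem_Icc] at hd
      omega
    · intro i hi
      rw [mem_range] at hi
      omega
    · intro d hd
      rw [mem_Icc] at hd
      unfold ac
      rw [mul_sum]
      rw [show T - (T - d) = d by omega]
  rw [e1]
  unfold ac
  simp only [mul_sum]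
  rw [sum_sigma', sum_sigma']
  apply sum_bij' (fun (x : (_ : ℕ) × ℕ) _ => (⟨x.2 + x.1, x.2⟩ : (_ : ℕ) × ℕ))
    (fun (x : (_ : ℕ) × ℕ) _ => (⟨x.1 - x.2, x.2⟩ : (_ : ℕ) × ℕ))
  · rintro ⟨k, j⟩ hx
    simp only [mem_sigma, mem_Icc, mem_range] at hx ⊢
    omega
  · rintro ⟨i, j⟩ hx
    simp only [mem_sigma, mem_Icc, mem_range] at hx ⊢
    omega
  · rintro ⟨k, j⟩ hx
    simp only [Nat.add_sub_cancel_left]
  · rintro ⟨i, j⟩ hx
    simp only [mem_sigma, mem_Icc, mem_range] at hx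
    simp only
    rw [show j + (i - j) = i by omega]
  · rintro ⟨k, j⟩ hx
    simp only [mem_sigma, mem_Icc, mem_range] at hx
    simp only
    rw [show j + (T - (j + k)) = T - k by omega]
    ring

theorem cross' (ε : ℕ → ℂ) {N T : ℕ} (h : N ≤ T) :
    ∑ k ∈ Icc 1 T, ε (T - k) * (ac ε k T - ac ε k N)
      = ∑ d ∈ Icc 1 (T - N), ε (T - d) * ac ε d T := by
  have h1 : ∑ k ∈ Icc 1 T, ε (T - k) * (ac ε k T - ac ε k N)
      = ∑ k ∈ Icc 1 T, ε (T - k) * ac ε k T - ∑ k ∈ Icc 1 T, ε (T - k) * ac ε k N := by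
    rw [← sum_sub_distrib]
    exact sum_congr rfl fun k _ => by ring
  rw [h1, cross ε h]
  have h2 : Icc 1 T = Icc 1 (T - N) ∪ Icc (T - N + 1) T := by
    ext x
    simp only [mem_union, mem_Icc]
    omega
  have h3 : Disjoint (Icc 1 (T - N)) (Icc (T - N + 1) T) := by
    rw [disjoint_left]
    intro x hx hy
    simp only [mem_Icc] at hx hy
    omega
  rw [h2, sum_union h3]
  ring

theorem norm_sq_add_unit (w u : ℂ) (hu : ‖u‖ = 1) :
    ‖w + u‖ ^ 2 = ‖w‖ ^ 2 + 2 * (conj u * w).re + 1 := by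
  rw [← Complex.normSq_eq_norm_sq, ← Complex.normSq_eq_norm_sq, Complex.normSq_add]
  have : Complex.normSq u = 1 := by rw [Complex.normSq_eq_norm_sq, hu]; norm_num
  rw [this, mul_comm (conj u) w]
  ring

theorem re_sum_mul {ι : Type*} (a : ℂ) (s : Finset ι) (f : ι → ℂ) :
    ∑ k ∈ s, 2 * (a * f k).re = 2 * (a * ∑ k ∈ s, f k).re := by
  rw [mul_sum, Complex.re_sum, mul_sum]

/-- the exact identity -/
theorem ident (ε : ℕ → ℂ) (hε : ∀ k, ‖ε k‖ = 1) (N n : ℕ) :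
    ∑ k ∈ Icc 1 (N + n), ‖ac ε k (N + n) - ac ε k N‖ ^ 2
      = n * N + ∑ d ∈ Ico 1 n, (‖ac ε d (N + n)‖ ^ 2 - ‖ac ε d (N + d)‖ ^ 2) := by
  induction n with
  | zero => simp
  | succ n ih =>
    set T := N + n with hT
    have hu : ∀ k, ‖ε T * conj (ε (T - k))‖ = 1 := by
      intro k
      rw [norm_mul, RCLike.norm_conj, hε, hε, mul_one]
    have step : ∑ k ∈ Icc 1 (T + 1), ‖ac ε k (T + 1) - ac ε k N‖ ^ 2
        = ∑ k ∈ Icc 1 T, ‖(ac ε k T - ac ε k N) + ε T * conj (ε (T - k))‖ ^ 2 := by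
      rw [sum_Icc_succ_top (by omega : 1 ≤ T + 1)]
      rw [ac_zero ε (le_refl (T + 1)), ac_zero ε (by omega : N ≤ T + 1)]
      simp only [sub_zero, norm_zero, ne_eq, OfNat.ofNat_ne_zero, not_false_eq_true, zero_pow,
        add_zero]
      apply sum_congr rfl
      intro k hk
      rw [mem_Icc] at hk
      rw [ac_succ ε hk.2]
      congr 2
      ring
    have e1 : ∑ k ∈ Icc 1 T, ‖(ac ε k T - ac ε k N) + ε T * conj (ε (T - k))‖ ^ 2
        = ∑ k ∈ Icc 1 T, ‖ac ε k T - ac ε k N‖ ^ 2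
          + 2 * (conj (ε T) * ∑ k ∈ Icc 1 T, ε (T - k) * (ac ε k T - ac ε k N)).re + T := by
      have : ∀ k ∈ Icc 1 T, ‖(ac ε k T - ac ε k N) + ε T * conj (ε (T - k))‖ ^ 2
          = ‖ac ε k T - ac ε k N‖ ^ 2
            + 2 * (conj (ε T) * (ε (T - k) * (ac ε k T - ac ε k N))).re + 1 := by
        intro k _
        rw [norm_sq_add_unit _ _ (hu k)]
        congr 3
        rw [map_mul, conj_conj]
        ring_nf
      rw [sum_congr rfl this, sum_add_distrib, sum_add_distrib, re_sum_mul]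
      simp
    have e2 : ∑ d ∈ Icc 1 n, (‖ac ε d (T + 1)‖ ^ 2 - ‖ac ε d T‖ ^ 2)
        = 2 * (conj (ε T) * ∑ d ∈ Icc 1 n, ε (T - d) * ac ε d T).re + n := by
      have : ∀ d ∈ Icc 1 n, ‖ac ε d (T + 1)‖ ^ 2 - ‖ac ε d T‖ ^ 2
          = 2 * (conj (ε T) * (ε (T - d) * ac ε d T)).re + 1 := by
        intro d hd
        rw [mem_Icc] at hd
        rw [ac_succ ε (by omega : d ≤ T), norm_sq_add_unit _ _ (hu d)]
        rw [map_mul, conj_conj, mul_assoc]
        ring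
      rw [sum_congr rfl this, sum_add_distrib, re_sum_mul]
      simp
    have e3 := cross' ε (by omega : N ≤ T)
    rw [show T - N = n by omega] at e3
    have e4 : ∑ d ∈ Ico 1 n, (‖ac ε d T‖ ^ 2 - ‖ac ε d (N + d)‖ ^ 2)
        = ∑ d ∈ Ico 1 (n + 1), (‖ac ε d T‖ ^ 2 - ‖ac ε d (N + d)‖ ^ 2) := by
      rcases Nat.eq_zero_or_pos n with h0 | hpos
      · subst h0; simp
      · rw [sum_Ico_succ_top (by omega : 1 ≤ n)]
        rw [← hT]
        ring
    have e5 : ∑ d ∈ Ico 1 (n + 1), (‖ac ε d (T + 1)‖ ^ 2 - ‖ac ε d (N + d)‖ ^ 2)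
        = ∑ d ∈ Ico 1 (n + 1), (‖ac ε d T‖ ^ 2 - ‖ac ε d (N + d)‖ ^ 2)
          + ∑ d ∈ Icc 1 n, (‖ac ε d (T + 1)‖ ^ 2 - ‖ac ε d T‖ ^ 2) := by
      have : Icc 1 n = Ico 1 (n + 1) := by
        ext x; simp only [mem_Icc, mem_Ico]; omega
      rw [this, ← sum_add_distrib]
      exact sum_congr rfl fun d _ => by ring
    rw [show N + (n + 1) = T + 1 by omega, step, e1, ih, e3, e5, ← e4]
    rw [e2]
    have hTr : (T : ℝ) = N + n := by rw [hT]; push_cast; ring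
    rw [hTr]
    push_cast
    ring

end Vale.Agent.P110
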