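import Vale.Agent.P110.Parseval

/-! P110: prefixes of one sequence are not all flat. -/

namespace Vale.Agent.P110

open Finset Complex ComplexConjugate MeasureTheory

theorem L2_eq (ε : ℕ → ℂ) (hε : ∀ k, ‖ε k‖ = 1) (N : ℕ) :
    ∫ θ in (0 : ℝ)..(2 * Real.pi), ‖seg ε N (Complex.exp (θ * I))‖ ^ 2 = 2 * Real.pi * N := by
  set S := Ico 1 N with hS
  have hpt : ∀ θ : ℝ, ((‖seg ε N (Complex.exp (θ * I))‖ ^ 2 : ℝ) : ℂ)
      = (N : ℂ)
        + (∑ d ∈ S, (ac ε d N) *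
            (Complex.exp (θ * I) ^ d * conj (Complex.exp (θ * I)) ^ 0))
        + (∑ d ∈ S, (conj (ac ε d N)) *
            (Complex.exp (θ * I) ^ 0 * conj (Complex.exp (θ * I)) ^ d)) := by
    intro θ
    set z := Complex.exp (θ * I) with hz
    have h1 := norm_sq_seg ε hε N z (norm_exp_I θ)
    have hH : HH ε N z = ∑ d ∈ S, ac ε d N * z ^ d := rfl
    have hHc : conj (HH ε N z) = ∑ d ∈ S, conj (ac ε d N) * conj z ^ d := by
      rw [hH, map_sum]
      exact sum_congr rfl fun d _ => by rw [map_mul, map_pow]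
    have t1 : ∑ d ∈ S, (ac ε d N) * (z ^ d * conj z ^ 0) = HH ε N z := by
      rw [hH]; exact sum_congr rfl fun d _ => by ring
    have t2 : ∑ d ∈ S, (conj (ac ε d N)) * (z ^ 0 * conj z ^ d)
        = conj (HH ε N z) := by
      rw [hHc]; exact sum_congr rfl fun d _ => by ring
    rw [h1, t1, t2, add_assoc, Complex.add_conj]
    push_cast
    ring
  have hint : ((∫ θ in (0 : ℝ)..(2 * Real.pi), ‖seg ε N (Complex.exp (θ * I))‖ ^ 2 : ℝ) : ℂ)
      = (2 * Real.pi) * (N : ℂ) := by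
    rw [← intervalIntegral.integral_ofReal]
    simp only [hpt]
    rw [intervalIntegral.integral_add, intervalIntegral.integral_add, int_sum, int_sum,
      intervalIntegral.integral_const]
    · have z1 : ∑ d ∈ S, (ac ε d N) * (if d = 0 then ((2 * Real.pi : ℝ) : ℂ) else 0)
          = 0 := by
        apply sum_eq_zero
        intro d hd
        rw [hS, mem_Ico] at hd
        rw [if_neg (by omega), mul_zero]
      have z2 : ∑ d ∈ S, (conj (ac ε d N))
          * (if 0 = d then ((2 * Real.pi : ℝ) : ℂ) else 0) = 0 := by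
        apply sum_eq_zero
        intro d hd
        rw [hS, mem_Ico] at hd
        rw [if_neg (by omega), mul_zero]
      rw [z1, z2]
      simp
    all_goals (apply Continuous.intervalIntegrable; fun_prop)
  have : (((2 * Real.pi) * (N : ℝ) : ℝ) : ℂ) = (2 * Real.pi) * (N : ℂ) := by push_cast; ring
  rw [← this] at hint
  exact_mod_cast hint

/-- a sup bound gives an `L^4` bound -/
theorem L4_le (ε : ℕ → ℂ) (hε : ∀ k, ‖ε k‖ = 1) (N : ℕ) (B : ℝ)
    (h : ∀ z : ℂ, ‖z‖ = 1 → ‖seg ε N z‖ ^ 2 ≤ B) : L4 ε N ≤ B * N := by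
  unfold L4
  have h1 : ∫ θ in (0 : ℝ)..(2 * Real.pi), ‖seg ε N (Complex.exp (θ * I))‖ ^ 4
      ≤ ∫ θ in (0 : ℝ)..(2 * Real.pi), B * ‖seg ε N (Complex.exp (θ * I))‖ ^ 2 := by
    apply intervalIntegral.integral_mono_on (by positivity)
    · apply Continuous.intervalIntegrable
      exact (continuous_seg ε N).norm.pow 4
    · apply Continuous.intervalIntegrable
      exact continuous_const.mul ((continuous_seg ε N).norm.pow 2)
    · intro θ _
      have h2 := h (Complex.exp (θ * I)) (norm_exp_I θ)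
      have h3 : 0 ≤ ‖seg ε N (Complex.exp (θ * I))‖ ^ 2 := by positivity
      calc ‖seg ε N (Complex.exp (θ * I))‖ ^ 4
          = ‖seg ε N (Complex.exp (θ * I))‖ ^ 2 * ‖seg ε N (Complex.exp (θ * I))‖ ^ 2 := by ring
        _ ≤ B * ‖seg ε N (Complex.exp (θ * I))‖ ^ 2 := mul_le_mul_of_nonneg_right h2 h3
  rw [intervalIntegral.integral_const_mul, L2_eq ε hε N] at h1
  have hpi : (0 : ℝ) < 2 * Real.pi := by positivity
  rw [one_div, inv_mul_le_iff₀ hpi]
  linarith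

theorem sum_sq_range (K : ℕ) : ∑ N ∈ range K, (N : ℝ) ^ 2 = K * (K - 1) * (2 * K - 1) / 6 := by
  induction K with
  | zero => simp
  | succ K ih =>
    rw [sum_range_succ, ih]
    push_cast
    ring

theorem partB (ε : ℕ → ℂ) (hε : ∀ k, ‖ε k‖ = 1) (M n : ℕ) :
    (n : ℝ) ^ 2 * (2 * M + n - 1) / 3 ≤ ∑ N ∈ Ico M (M + 2 * n), (L4 ε N - (N : ℝ) ^ 2) := by
  have h := avg ε hε M n
  have e : ∑ N ∈ Ico M (M + 2 * n), (L4 ε N - (N : ℝ) ^ 2)
      = 2 * ∑ m ∈ Ico M (M + 2 * n), AA ε m := by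
    rw [mul_sum]
    apply sum_congr rfl
    intro m _
    rw [L4_eq ε hε m]
    ring
  rw [e]
  linarith

theorem partA (ε : ℕ → ℂ) (hε : ∀ k, ‖ε k‖ = 1) (M : ℕ) (hM : 1 ≤ M) :
    ∃ N, M ≤ N ∧ N < 7 * M ∧ ∃ z : ℂ, ‖z‖ = 1 ∧ 1.06 * Real.sqrt N ≤ ‖seg ε N z‖ := by
  by_contra hcon
  push Not at hcon
  have hM' : (1 : ℝ) ≤ M := by exact_mod_cast hM
  have h1 : ∀ N ∈ Ico M (M + 2 * (3 * M)), L4 ε N - (N : ℝ) ^ 2 ≤ 0.1236 * (N : ℝ) ^ 2 := by
    intro N hN
    rw [mem_Ico] at hN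
    have h2 : L4 ε N ≤ (1.1236 * N) * N := by
      apply L4_le ε hε
      intro z hz
      have h3 := hcon N hN.1 (by omega) z hz
      have h4 : ‖seg ε N z‖ ^ 2 ≤ (1.06 * Real.sqrt N) ^ 2 :=
        pow_le_pow_left₀ (norm_nonneg _) h3.le 2
      rw [mul_pow, Real.sq_sqrt (Nat.cast_nonneg N)] at h4
      linarith
    nlinarith
  have h5 := partB ε hε M (3 * M)
  have h6 : ∑ N ∈ Ico M (M + 2 * (3 * M)), (L4 ε N - (N : ℝ) ^ 2)
      ≤ 0.1236 * ∑ N ∈ Ico M (M + 2 * (3 * M)), (N : ℝ) ^ 2 := by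
    rw [mul_sum]
    exact sum_le_sum h1
  have h7 : ∑ N ∈ Ico M (M + 2 * (3 * M)), (N : ℝ) ^ 2
      = 114 * (M : ℝ) ^ 3 - 24 * (M : ℝ) ^ 2 + M := by
    rw [sum_Ico_eq_sub _ (by omega), sum_sq_range, sum_sq_range]
    push_cast
    ring
  rw [h7] at h6
  push_cast at h5
  nlinarith [mul_nonneg (sub_nonneg.mpr hM') (sub_nonneg.mpr hM'),
    mul_pos (by linarith : (0 : ℝ) < M) (by linarith : (0 : ℝ) < M),
    mul_nonneg (mul_nonneg (sub_nonneg.mpr hM') (sub_nonneg.mpr hM'))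
      (by linarith : (0 : ℝ) ≤ M)]

end Vale.Agent.P110
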