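import Vale.Agent.P110.Avg

/-! P110: the fourth moment in terms of the autocorrelations. -/

namespace Vale.Agent.P110

open Finset Complex ComplexConjugate MeasureTheory

/-- the analytic half of `|P_N|^2` -/
noncomputable def HH (ε : ℕ → ℂ) (N : ℕ) (z : ℂ) : ℂ := ∑ d ∈ Ico 1 N, ac ε d N * z ^ d

theorem HH_succ (ε : ℕ → ℂ) (N : ℕ) (z : ℂ) (hz : ‖z‖ = 1) :
    HH ε (N + 1) z = HH ε N z + ε N * z ^ N * conj (seg ε N z) := by
  have hzz : z * conj z = 1 := by
    rw [Complex.mul_conj, Complex.normSq_eq_norm_sq, hz]; norm_num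
  unfold HH
  have h1 : ∑ d ∈ Ico 1 N, ac ε d N * z ^ d = ∑ d ∈ Ico 1 (N + 1), ac ε d N * z ^ d := by
    rcases Nat.eq_zero_or_pos N with h0 | hpos
    · subst h0; simp
    · rw [sum_Ico_succ_top (by omega : 1 ≤ N), ac_zero ε (le_refl N)]
      ring
  rw [h1]
  have h2 : ∀ d ∈ Ico 1 (N + 1), ac ε d (N + 1) * z ^ d
      = ac ε d N * z ^ d + ε N * conj (ε (N - d)) * z ^ d := by
    intro d hd
    rw [mem_Ico] at hd
    rw [ac_succ ε (by omega)]
    ring
  rw [sum_congr rfl h2, sum_add_distrib]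
  congr 1
  unfold seg
  rw [map_sum, mul_sum]
  apply sum_bij' (fun d _ => N - d) (fun j _ => N - j)
  · intro d hd
    simp only [mem_Ico, mem_range] at hd ⊢
    omega
  · intro j hj
    simp only [mem_Ico, mem_range] at hj ⊢
    omega
  · intro d hd
    simp only [mem_Ico] at hd
    omega
  · intro j hj
    simp only [mem_range] at hj
    omega
  · intro d hd
    simp only [mem_Ico] at hd
    rw [map_mul, map_pow]
    have h3 : z ^ N * conj z ^ (N - d) = z ^ d := by
      have : z ^ N = z ^ d * z ^ (N - d) := by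
        rw [← pow_add]; congr 1; omega
      rw [this, mul_assoc, ← mul_pow, hzz, one_pow, mul_one]
    calc ε N * conj (ε (N - d)) * z ^ d
        = ε N * conj (ε (N - d)) * (z ^ N * conj z ^ (N - d)) := by rw [h3]
      _ = _ := by ring

theorem norm_sq_seg (ε : ℕ → ℂ) (hε : ∀ k, ‖ε k‖ = 1) (N : ℕ) (z : ℂ) (hz : ‖z‖ = 1) :
    ‖seg ε N z‖ ^ 2 = N + 2 * (HH ε N z).re := by
  induction N with
  | zero => simp [seg, HH]
  | succ N ih =>
    have h1 : seg ε (N + 1) z = seg ε N z + ε N * z ^ N := by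
      unfold seg; rw [sum_range_succ]
    have hu : ‖ε N * z ^ N‖ = 1 := by rw [norm_mul, norm_pow, hz, hε]; norm_num
    rw [h1, norm_sq_add_unit _ _ hu, ih, HH_succ ε N z hz, Complex.add_re]
    have h2 : (conj (ε N * z ^ N) * seg ε N z).re = (ε N * z ^ N * conj (seg ε N z)).re := by
      rw [← Complex.conj_re (ε N * z ^ N * conj (seg ε N z))]
      simp only [map_mul, conj_conj]
    rw [h2]
    push_cast
    ring

theorem int_exp (n : ℤ) (hn : n ≠ 0) :
    ∫ θ in (0 : ℝ)..(2 * Real.pi), Complex.exp (n * (θ * I)) = 0 := by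
  have hc : (n * I : ℂ) ≠ 0 := mul_ne_zero (by exact_mod_cast hn) I_ne_zero
  have h1 : ∀ θ : ℝ, Complex.exp (n * (θ * I)) = Complex.exp ((n * I : ℂ) * θ) := by
    intro θ; congr 1; ring
  simp only [h1]
  rw [integral_exp_mul_complex hc]
  have h2 : Complex.exp (n * I * ((2 * Real.pi : ℝ) : ℂ)) = 1 := by
    rw [show (n * I * ((2 * Real.pi : ℝ) : ℂ)) = n * (2 * Real.pi * I) by push_cast; ring]
    exact Complex.exp_int_mul_two_pi_mul_I n
  rw [h2]
  simp

/-- `∫ z^a conj(z)^b` over the circle -/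
theorem int_mono (a b : ℕ) :
    ∫ θ in (0 : ℝ)..(2 * Real.pi),
      Complex.exp (θ * I) ^ a * conj (Complex.exp (θ * I)) ^ b
      = if a = b then ((2 * Real.pi : ℝ) : ℂ) else 0 := by
  have h1 : ∀ θ : ℝ, Complex.exp (θ * I) ^ a * conj (Complex.exp (θ * I)) ^ b
      = Complex.exp (((a : ℤ) - (b : ℤ) : ℤ) * (θ * I)) := by
    intro θ
    rw [← Complex.exp_conj, map_mul, conj_I, Complex.conj_ofReal, ← Complex.exp_nat_mul,
      ← Complex.exp_nat_mul, ← Complex.exp_add]
    congr 1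
    push_cast
    ring
  simp only [h1]
  by_cases h : a = b
  · subst h
    simp
  · rw [if_neg h]
    exact int_exp _ (by omega)


theorem int_sum {ι : Type*} (s : Finset ι) (c : ι → ℂ) (a b : ι → ℕ) :
    ∫ θ in (0 : ℝ)..(2 * Real.pi), ∑ i ∈ s,
      c i * (Complex.exp (θ * I) ^ a i * conj (Complex.exp (θ * I)) ^ b i)
      = ∑ i ∈ s, c i * (if a i = b i then ((2 * Real.pi : ℝ) : ℂ) else 0) := by
  rw [intervalIntegral.integral_finset_sum]
  · apply sum_congr rfl
    intro i _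
    rw [intervalIntegral.integral_const_mul, int_mono]
  · intro i _
    apply Continuous.intervalIntegrable
    fun_prop

theorem norm_exp_I (θ : ℝ) : ‖Complex.exp (θ * I)‖ = 1 := Complex.norm_exp_ofReal_mul_I θ

theorem continuous_seg (ε : ℕ → ℂ) (N : ℕ) :
    Continuous fun θ : ℝ => seg ε N (Complex.exp (θ * I)) := by
  unfold seg
  fun_prop

theorem L4_eq (ε : ℕ → ℂ) (hε : ∀ k, ‖ε k‖ = 1) (N : ℕ) :
    L4 ε N = (N : ℝ) ^ 2 + 2 * AA ε N := by
  set S := Ico 1 N with hS
  -- pointwise expansion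
  have hpt : ∀ θ : ℝ, ((‖seg ε N (Complex.exp (θ * I))‖ ^ 4 : ℝ) : ℂ)
      = (N : ℂ) ^ 2
        + (∑ d ∈ S, (2 * N * ac ε d N) *
            (Complex.exp (θ * I) ^ d * conj (Complex.exp (θ * I)) ^ 0))
        + (∑ d ∈ S, (2 * N * conj (ac ε d N)) *
            (Complex.exp (θ * I) ^ 0 * conj (Complex.exp (θ * I)) ^ d))
        + (∑ x ∈ S ×ˢ S, (ac ε x.1 N * ac ε x.2 N) *
            (Complex.exp (θ * I) ^ (x.1 + x.2) * conj (Complex.exp (θ * I)) ^ 0))
        + (∑ x ∈ S ×ˢ S, (conj (ac ε x.1 N) * conj (ac ε x.2 N)) *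
            (Complex.exp (θ * I) ^ 0 * conj (Complex.exp (θ * I)) ^ (x.1 + x.2)))
        + (∑ x ∈ S ×ˢ S, (2 * (ac ε x.1 N * conj (ac ε x.2 N))) *
            (Complex.exp (θ * I) ^ x.1 * conj (Complex.exp (θ * I)) ^ x.2)) := by
    intro θ
    set z := Complex.exp (θ * I) with hz
    have h1 := norm_sq_seg ε hε N z (norm_exp_I θ)
    have h2 : ((‖seg ε N z‖ ^ 4 : ℝ) : ℂ) = ((N : ℂ) + (HH ε N z + conj (HH ε N z))) ^ 2 := by
      rw [show ‖seg ε N z‖ ^ 4 = (‖seg ε N z‖ ^ 2) ^ 2 by ring, h1]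
      rw [Complex.add_conj]
      push_cast
      ring
    have hH : HH ε N z = ∑ d ∈ S, ac ε d N * z ^ d := rfl
    have hHc : conj (HH ε N z) = ∑ d ∈ S, conj (ac ε d N) * conj z ^ d := by
      rw [hH, map_sum]
      exact sum_congr rfl fun d _ => by rw [map_mul, map_pow]
    have t1 : ∑ d ∈ S, (2 * N * ac ε d N) * (z ^ d * conj z ^ 0) = 2 * N * HH ε N z := by
      rw [hH, mul_sum]; exact sum_congr rfl fun d _ => by ring
    have t2 : ∑ d ∈ S, (2 * N * conj (ac ε d N)) * (z ^ 0 * conj z ^ d)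
        = 2 * N * conj (HH ε N z) := by
      rw [hHc, mul_sum]; exact sum_congr rfl fun d _ => by ring
    have t3 : ∑ x ∈ S ×ˢ S, (ac ε x.1 N * ac ε x.2 N) * (z ^ (x.1 + x.2) * conj z ^ 0)
        = HH ε N z * HH ε N z := by
      rw [hH, sum_mul_sum, ← sum_product']; exact sum_congr rfl fun d _ => by ring
    have t4 : ∑ x ∈ S ×ˢ S, (conj (ac ε x.1 N) * conj (ac ε x.2 N))
          * (z ^ 0 * conj z ^ (x.1 + x.2))
        = conj (HH ε N z) * conj (HH ε N z) := by
      rw [hHc, sum_mul_sum, ← sum_product']; exact sum_congr rfl fun d _ => by ring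
    have t5 : ∑ x ∈ S ×ˢ S, (2 * (ac ε x.1 N * conj (ac ε x.2 N))) * (z ^ x.1 * conj z ^ x.2)
        = 2 * (HH ε N z * conj (HH ε N z)) := by
      rw [hHc, hH, sum_mul_sum, ← sum_product', mul_sum]
      exact sum_congr rfl fun d _ => by ring
    rw [h2, t1, t2, t3, t4, t5]
    ring
  have hint : ((∫ θ in (0 : ℝ)..(2 * Real.pi), ‖seg ε N (Complex.exp (θ * I))‖ ^ 4 : ℝ) : ℂ)
      = (2 * Real.pi) * ((N : ℂ) ^ 2 + 2 * ((AA ε N : ℝ) : ℂ)) := by
    rw [← intervalIntegral.integral_ofReal]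
    simp only [hpt]
    rw [intervalIntegral.integral_add, intervalIntegral.integral_add,
      intervalIntegral.integral_add, intervalIntegral.integral_add,
      intervalIntegral.integral_add, int_sum, int_sum, int_sum, int_sum, int_sum,
      intervalIntegral.integral_const]
    · have z1 : ∑ d ∈ S, (2 * N * ac ε d N) * (if d = 0 then ((2 * Real.pi : ℝ) : ℂ) else 0)
          = 0 := by
        apply sum_eq_zero
        intro d hd
        rw [hS, mem_Ico] at hd
        rw [if_neg (by omega), mul_zero]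
      have z2 : ∑ d ∈ S, (2 * N * conj (ac ε d N))
          * (if 0 = d then ((2 * Real.pi : ℝ) : ℂ) else 0) = 0 := by
        apply sum_eq_zero
        intro d hd
        rw [hS, mem_Ico] at hd
        rw [if_neg (by omega), mul_zero]
      have z3 : ∑ x ∈ S ×ˢ S, (ac ε x.1 N * ac ε x.2 N)
          * (if x.1 + x.2 = 0 then ((2 * Real.pi : ℝ) : ℂ) else 0) = 0 := by
        apply sum_eq_zero
        intro d hd
        rw [hS, mem_product, mem_Ico] at hd
        rw [if_neg (by omega), mul_zero]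
      have z4 : ∑ x ∈ S ×ˢ S, (conj (ac ε x.1 N) * conj (ac ε x.2 N))
          * (if 0 = x.1 + x.2 then ((2 * Real.pi : ℝ) : ℂ) else 0) = 0 := by
        apply sum_eq_zero
        intro d hd
        rw [hS, mem_product, mem_Ico] at hd
        rw [if_neg (by omega), mul_zero]
      have z5 : ∑ x ∈ S ×ˢ S, (2 * (ac ε x.1 N * conj (ac ε x.2 N)))
          * (if x.1 = x.2 then ((2 * Real.pi : ℝ) : ℂ) else 0)
          = 2 * ((AA ε N : ℝ) : ℂ) * (2 * Real.pi) := by
        rw [sum_product]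
        have : ∀ d ∈ S, ∑ e ∈ S, (2 * (ac ε d N * conj (ac ε e N)))
            * (if d = e then ((2 * Real.pi : ℝ) : ℂ) else 0)
            = 2 * ((‖ac ε d N‖ ^ 2 : ℝ) : ℂ) * (2 * Real.pi) := by
          intro d hd
          rw [sum_eq_single d]
          · rw [if_pos rfl, Complex.mul_conj, Complex.normSq_eq_norm_sq]
            push_cast
            ring
          · intro e _ hne
            rw [if_neg (Ne.symm hne), mul_zero]
          · intro h; exact absurd hd h
        simp only at this ⊢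
        rw [sum_congr rfl this, ← sum_mul, ← mul_sum]
        unfold AA
        push_cast
        rfl
      rw [z1, z2, z3, z4, z5]
      simp only [sub_zero, Complex.real_smul]
      push_cast
      ring
    all_goals (apply Continuous.intervalIntegrable; fun_prop)
  have hpi : (2 * Real.pi) ≠ 0 := by positivity
  have hreal : (∫ θ in (0 : ℝ)..(2 * Real.pi), ‖seg ε N (Complex.exp (θ * I))‖ ^ 4)
      = (2 * Real.pi) * ((N : ℝ) ^ 2 + 2 * AA ε N) := by
    have : (((2 * Real.pi) * ((N : ℝ) ^ 2 + 2 * AA ε N) : ℝ) : ℂ)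
        = (2 * Real.pi) * ((N : ℂ) ^ 2 + 2 * ((AA ε N : ℝ) : ℂ)) := by push_cast; ring
    rw [← this] at hint
    exact_mod_cast hint
  unfold L4
  rw [hreal, ← mul_assoc, one_div, inv_mul_cancel₀ hpi, one_mul]

end Vale.Agent.P110
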